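import Vale.Agent.P269.G2I.XSpec2
import Vale.Agent.P269.G2I.H984.SmallOne
import Vale.Agent.P269.G2I.H861.KeyX
import Vale.Agent.P269.G1I.H984.DeZeroOf
import Vale.Agent.P269.G1I.T.H302_DF

/-!
# Genus-one Virasoro constraints, even dimension: only `L_1` is an obstruction
-/

namespace Vale.Agent.P269.H597G2

open Vale.Agent.P269.CI Vale.Agent.P269.G2
open Vale.Agent.P269.G2.H984

variable {X : CompleteIntersection} {F : ℕ → ℕ → List (Ins X) → ℂ}

theorem aM_one (hF : IsGW X F) (he : Even X.dim) (h1 : IsGenusOneFull F) (hX : 3 ≤ X.dim) :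
    aM hF he 1 = (frob hF he).de 2 := by
  have h := aM_key hF he h1 hX 1
  have h2 : ((2 : ℕ) : RM X) * (aM hF he 1 - (frob hF he).de 2) = 0 := by
    rw [mul_sub, sub_eq_zero]
    exact h
  exact sub_eq_zero.1 (natCast_cancel 2 two_ne_zero _ h2)

theorem hY (hF : IsGW X F) (he : Even X.dim) (h1 : IsGenusOneFull F) (hX : 3 ≤ X.dim)
    (Y : AM hF he) (n : ℕ) : (frob hF he).der Y (aM hF he n) =
      (n : RM X) * (frob hF he).der (EM hF he ^ (n - 1) * Y) (aM hF he 1) := by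
  rw [aM_one hF he h1 hX]
  exact Vale.Agent.P269.G2.H861.der_a (frob hF he) (frob_getzler hF he h1)
    (frob_de_one hF he hX) n Y

/-- the ambient constraints -/
theorem ambient (hF : IsGW X F) (h1 : IsGenusOneFull F) (hX : 3 ≤ X.dim) (hi : 2 ≤ index X)
    (hm : 1 ≤ excess X)
    (hz : ∀ k d : ℕ, 1 ≤ d → index X * d = k → k + 2 ≤ excess X →
      virasoro X F (k + 1) 1 d [] = 0) (k d : ℕ) (L : List (Fin (X.dim + 1))) :
    virasoro X F (k + 1) 1 d (L.map (hpow X)) = 0 :=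
  Vale.Agent.P269.G1.H984.virasoro_small_of hF h1.toOne hX hm hi hz k d L

/-- there are no numbers to check if `2 m ≤ r + 2` -/
theorem no_numbers (h2 : 2 * excess X ≤ X.dim + 2) (k d : ℕ) (hd : 1 ≤ d)
    (hk : index X * d = k) (hk2 : k + 2 ≤ excess X) (hi : 2 ≤ index X) : False := by
  have hid := Vale.Agent.P269.G1.index_eq X
  have h4 : (index X : ℤ) ≤ k := by
    rw [← hk]
    have : (1 : ℤ) ≤ d := by exact_mod_cast hd
    nlinarith
  omega

theorem virasoro_one_of (hF : IsGW X F) (he : Even X.dim) (h1 : IsGenusOneFull F)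
    (hX : 3 ≤ X.dim) (hi : index X ≠ 0)
    (h0 : ∀ k d (L : List (Fin (X.dim + 1))), virasoro X F (k + 1) 1 d (L.map (hpow X)) = 0)
    (N0 : ℕ) (h3 : ∀ w : List X.Prim, w ≠ [] → w.length ≤ N0 → ∀ d : ℕ,
      virasoro X F 2 1 d (w.map fun v => (Sum.inr v, 0)) = 0)
    (K d : ℕ) (L : List (Ins X)) (hL : (L.countP fun x => x.1.isRight) ≤ N0) :
    virasoro X F K 1 d L = 0 := by
  cases K with
  | zero => exact Vale.Agent.P269.H597.virasoro_zero hF 1 d L
  | succ k =>
    exact vir_descend hF he h1.trr1 (h1.mono1 0) k N0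
      (virasoro_small_one_of hF he h1 hX hi (hY hF he h1 hX) h0 N0 h3 k) d L hL

/-- the numbers `L_1` vanish unless `ν` divides `1 + n (m - 3)`, `2 n` the number of
insertions -/
theorem number_zero (hF : IsGW X F) (h1 : IsGenusOneFull F) (hi : 2 ≤ index X)
    (hm : 3 ≤ excess X) (N0 : ℕ) (hn : ∀ n : ℕ, 1 ≤ n → 2 * n ≤ N0 →
      ¬ (index X ∣ 1 + n * ((excess X : ℤ) - 3)))
    (w : List X.Prim) (hw0 : w ≠ []) (hw : w.length ≤ N0) (d : ℕ) :
    virasoro X F 2 1 d (w.map fun v => (Sum.inr v, 0)) = 0 := by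
  by_cases hodd : w.length % 2 = 1
  · exact Vale.Agent.P269.G2.vir_odd h1 hm 1 d w hodd
  · refine Vale.Agent.P269.G2.vir_weight hF 1 d w ?_
    obtain ⟨n, hwn⟩ : ∃ n, w.length = 2 * n := ⟨w.length / 2, by omega⟩
    have hn1 : 1 ≤ n := by
      have := List.length_pos_iff.2 hw0
      omega
    have hid := Vale.Agent.P269.G1.index_eq X
    intro h
    refine hn n hn1 (by omega) ⟨(d : ℤ) - n, ?_⟩
    rw [hwn] at h
    push_cast at h
    have hdim : (X.dim : ℤ) - 2 = index X + (excess X - 3) := by rw [hid]; ring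
    rw [hdim] at h
    linarith

end Vale.Agent.P269.H597G2
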